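import Vale.Agent.P088.R2.H455.E.Lett
import Vale.Agent.P088.R2.H341.EP.Ct
import Vale.Agent.P088.R2.H509.EP.Lit2
import Vale.Agent.P088.R2.H354.E.PertXY
import Vale.Agent.P088.R2.H960.W.Res

/-!
# P088, stage 3, EST': continuity of the literal margins and costs
-/

open Set Filter MeasureTheory
open scoped ContDiff Topology Matrix

noncomputable section

namespace Vale.Agent.P088.R2.H493.EP

open Vale.Agent.P088.LR Vale.Agent.P088.HY
open Vale.Agent.P088.R2.H31.EP
open Vale.Agent.P088.R2.H551.E Vale.Agent.P088.R2.H961.GW Vale.Agent.P088.R2.H960.W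
open Vale.Agent.P088.R2.H867.EP (Zo Cut path sd Off alive_off alive_z2a alive_z2b)
open Vale.Agent.P088.R2.H867.Z (sq1 sqp sq1_sm sqp_sm)
open Vale.Agent.P088.R2.H455.E
open Vale.Agent.P088.R2.H341.EP
open Vale.Agent.P088.R2.H338.TC (Na rx ry)
open Vale.Agent.P088.R2.H354.E (fr_s)

variable {n : ℕ} {q : Cst} {d : Pk n}

/-! ### The data -/

/-- The facts which are used. -/
structure CF (q : Cst) (d : Pk n) : Prop where
  ok : PkOk q d
  s : LitSm q d
  r : H509.Rad.Ok q.e₁ rp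
  M1 : 1 ≤ q.M₀
  T0 : 0 < q.rT
  c0 : 0 < q.c₀
  R0 : 0 < q.R
  σ0 : 0 < q.σ
  ox : d.sx.Ok univ fun _ => 1
  oy : d.sy.Ok univ fun _ => 1
  W : ContDiff ℝ ∞ (d.W q)

theorem tht_one : H961.GW.tht (fun _ : V n => (1 : ℝ)) (fun _ => 1) = fun _ => 1 := by
  funext z
  simp [tht]

/-- **The facts hold for good constants.** -/
theorem evCF (n : ℕ) : EvC fun q => ∀ d : Pk n, PkOk q d → CF q d := by
  refine ((EvC.litSm n).and (EvC.pos.and EvC.rad)).mono ?_
  rintro q ⟨h1, h4, hr⟩ d h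
  have hM : 1 ≤ q.M₀ := h4.2.2.1
  have hT : 0 < q.rT := h4.1.2.2.2.2.2.2.2.1
  obtain ⟨⟨a1, a2, a3, a4, a5, a6, a7, a8, a9, a10⟩, ⟨b1, b2, b3, b4, b5, b6, b7⟩, c1, c2, c3,
    c4, c5, c6⟩ := h4
  have hR : 0 < q.R := by linarith
  have s := h1 d h
  have y1 : ∀ x i j, d.s₁ x i j = d.s₁ x j i := fun x i j => (h.rg.sy₁ x).apply j i
  have y2 : ∀ x i j, d.s₂ x i j = d.s₂ x j i := fun x i j => (h.rg.sy₂ x).apply j i
  have f1 : Fr0 (fun _ : V n => (1 : ℝ)) d.s₁ univ :=
    fr_s isOpen_univ (fun i j => (h.rg.sm₁ i j).contDiffOn) y1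
  have f2 : Fr0 (fun _ : V n => (1 : ℝ)) d.s₂ univ :=
    fr_s isOpen_univ (fun i j => (h.rg.sm₂ i j).contDiffOn) y2
  have ox := okx f1 f2 (U := univ) isOpen_univ (fun z _ => ⟨mem_univ _, mem_univ _⟩)
  have oy := oky f1 f2 (U := univ) isOpen_univ (fun z _ => ⟨mem_univ _, mem_univ _⟩)
  rw [tht_one] at ox oy
  exact { ok := h, s := s, r := hr, M1 := hM, T0 := hT, c0 := by assumption, R0 := hR,
          σ0 := by assumption, ox := ox, oy := oy
          W := WT_smooth h.ok h.Θs h.ret.sm h.lev.sm s.g }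


namespace CF

/-- The positive set of the distance. -/
theorem cr2 (c : CF q d) : Continuous d.r2 := continuous_const.mul c.s.rq.continuous

theorem r2n (c : CF q d) (z : VV n) : 0 ≤ d.r2 z := by
  have := c.s.rq0 z
  show 0 ≤ 2 * H464.Cu.rq (gi d.s₁) z
  linarith

/-- Off the diagonal. -/
def Om (d : Pk n) : Set (VV n) := {z | 0 < d.r2 z}

theorem oOm (c : CF q d) : IsOpen (Om d) := isOpen_lt continuous_const c.cr2

theorem cE (c : CF q d) : Continuous (d.E q) := Real.continuous_exp.comp c.s.u.continuous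

theorem cN (c : CF q d) : Continuous (d.N q) := c.ok.Φ's.continuous.comp c.s.u.continuous

theorem cNa (c : CF q d) : Continuous (Na d) := c.ok.Φ's.continuous.comp c.s.u0.continuous

theorem cK (c : CF q d) : Continuous (d.Kf q) := c.ok.Φ''s.continuous.comp c.s.u.continuous

theorem Na0 (c : CF q d) (z : VV n) : 0 < Na d z := c.ok.N_pos c.M1 _

theorem N0 (c : CF q d) (z : VV n) : 0 < d.N q z := c.ok.N_pos c.M1 _

theorem E0 (z : VV n) : 0 < d.E q z := Real.exp_pos _

/-- The numbers are continuous where the weight `k` is. -/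
theorem nuct (c : CF q d) {k : Cst → Pk n → VV n → ℝ} {U : Set (VV n)}
    (hk : ContinuousOn (k q d) U) : NuCt (nu k q d) U where
  En := c.cE.continuousOn
  N := c.cN.continuousOn
  K := c.cK.continuousOn
  r2 := c.cr2.continuousOn
  m := (c.cE.mul c.cr2).continuousOn
  k := hk
  F₁ := ((s_F c.ox c.W.contDiffOn).continuousOn).mono (subset_univ U)
  F₂ := ((s_F c.oy c.W.contDiffOn).continuousOn).mono (subset_univ U)
  E0 z _ := E0 z
  m0 z _ := mul_nonneg (E0 z).le (c.r2n z)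

/-- The numbers without the weight. -/
theorem nuct0 (c : CF q d) : NuCt (nu (fun _ _ _ => 0) q d) univ := c.nuct continuousOn_const

/-! ### The supports -/

theorem off (c : CF q d) {k : Zo} (hk : Off k) {z : VV n} (hz : z ∈ tsupport (d.ch q k)) :
    z ∈ Om d := by
  have h1 : q.c₀ ^ 2 ≤ d.r2 z := by
    refine closure_minimal (s := Function.support (d.ch q k)) (t := {z | q.c₀ ^ 2 ≤ d.r2 z})
      (fun w hw => ?_) (isClosed_le continuous_const c.cr2) hz
    exact alive_off (u := d.u q) (X := d.X q) Fl_pair c.s.cp (Function.mem_support.1 hw) hk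
  have := c.c0
  show 0 < d.r2 z
  nlinarith [pow_pos this 2]

theorem z2a (c : CF q d) {z : VV n} (hz : z ∈ tsupport (d.ch q .z2a)) : z ∈ Om d := by
  have h1 : (d.cp q).ct * (d.cp q).K (d.u q z) ≤ Real.exp (d.u q z) * d.r2 z := by
    refine closure_minimal (s := Function.support (d.ch q .z2a))
      (t := {z | (d.cp q).ct * (d.cp q).K (d.u q z) ≤ Real.exp (d.u q z) * d.r2 z})
      (fun w hw => ?_) (isClosed_le (continuous_const.mul c.cK) (c.cE.mul c.cr2)) hz
    exact alive_z2a (u := d.u q) (X := d.X q) Fl_pair c.s.cp (Function.mem_support.1 hw)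
  have h2 := mul_pos c.s.cp.ct (c.s.cp.Kp (d.u q z))
  show 0 < d.r2 z
  by_contra hc
  have h3 := mul_nonpos_of_nonneg_of_nonpos (Real.exp_pos (d.u q z)).le (not_lt.1 hc)
  linarith

theorem z2b (c : CF q d) {z : VV n} (hz : z ∈ tsupport (d.ch q .z2b)) : z ∈ Om d := by
  have h1 : (d.cp q).M₁ (d.u q z) ≤ Real.exp (d.u q z) * d.r2 z := by
    refine closure_minimal (s := Function.support (d.ch q .z2b))
      (t := {z | (d.cp q).M₁ (d.u q z) ≤ Real.exp (d.u q z) * d.r2 z})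
      (fun w hw => ?_) (isClosed_le (c.s.cp.M₁s.continuous.comp c.s.u.continuous)
        (c.cE.mul c.cr2)) hz
    exact alive_z2b (u := d.u q) (X := d.X q) Fl_pair c.s.cp (c.s.rq0 w)
      (Function.mem_support.1 hw)
  have h2 := c.s.cp.M₁p (d.u q z)
  show 0 < d.r2 z
  by_contra hc
  have h3 := mul_nonpos_of_nonneg_of_nonpos (Real.exp_pos (d.u q z)).le (not_lt.1 hc)
  linarith

/-! ### The functions -/

theorem crr : Continuous (H338.TC.rr q : VV n → ℝ) :=
  Real.smoothTransition.continuous.comp (((continuous_const.mul qq_sm.continuous).div_const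
    _).sub continuous_const)

theorem crx (c : CF q d) : Continuous (rx q d) :=
  crr.mul (Real.smoothTransition.continuous.comp (continuous_const.sub
    (c.ok.tx_sm c.r c.M1 (t := 4 * q.rT) (by have := c.T0; positivity)).continuous))

theorem cry (c : CF q d) : Continuous (ry q d) :=
  crr.mul (Real.smoothTransition.continuous.comp (continuous_const.sub
    (c.ok.ty_sm c.r c.M1 (t := 4 * q.rT) (by have := c.T0; positivity)).continuous))

theorem csq1 (c : CF q d) (k : Zo) : Continuous (sq1 (d.ch q k)) := (sq1_sm (c.s.ch k)).continuous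

theorem csqp (c : CF q d) (k : Zo) : Continuous (sqp (d.ch q k)) := (sqp_sm (c.s.ch k)).continuous

theorem crz (c : CF q d) : Continuous (H747.A.rr d) := c.cr2.sqrt

theorem crz0 {z : VV n} (hz : z ∈ Om d) : 0 < H747.A.rr d z := Real.sqrt_pos.2 hz

theorem cff (c : CF q d) : ContinuousOn (H747.A.ff q d) (Om d) := by
  refine c.s.u.continuous.continuousOn.add ?_
  have h1 : Continuous (prS q.e₁) := c.r.pp.contDiff_Ph.continuous
  have h2 : Continuous fun z : VV n => prS q.e₁ (H747.A.rr d z ^ 2) := h1.comp (c.crz.pow 2)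
  refine h2.continuousOn.log fun z hz => ?_
  exact (c.r.pp.S_pos (pow_pos (crz0 hz) 2)).ne'

theorem cGG (c : CF q d) : ContinuousOn (H747.A.GG q d) (Om d) := by
  have h1 := (c.ok.sl.sm 1 0).continuousOn
  exact h1.comp (c.cff.prodMk c.crz.continuousOn) fun z hz => crz0 hz

theorem GG0 (c : CF q d) {z : VV n} (hz : z ∈ Om d) : 0 < H747.A.GG q d z :=
  c.ok.sl.G_pos _ (crz0 hz)

theorem cmA (c : CF q d) {μ : Cst → ℝ} : ContinuousOn (H747.A.mA μ q d) (Om d) := by
  refine (continuousOn_const.mul (c.cGG.div c.crz.continuousOn fun z hz => (crz0 hz).ne')).add ?_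
  exact continuousOn_const.mul (c.cN.continuousOn.add c.cGG)

theorem mA0 (c : CF q d) {μ : Cst → ℝ} (hμ : 0 < μ q) {z : VV n} (hz : z ∈ Om d) :
    0 ≤ H747.A.mA μ q d z := by
  have h1 := c.GG0 hz
  have h2 := crz0 hz
  have h3 := c.N0 z
  have h4 := c.R0
  have h5 := c.σ0
  unfold H747.A.mA H747.A.NG
  positivity

/-- The cost letter of zone II. -/
theorem cZc (c : CF q d) {K : ℝ} {k χ : VV n → ℝ} (hk : ContinuousOn k (Om d))
    (hk0 : ∀ z ∈ Om d, 0 < k z) (hχ : ContDiff ℝ ∞ χ) (hs : ∀ z ∈ tsupport χ, z ∈ Om d) :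
    Continuous (H867.Z.Zc K 1 (H464.Cu.rq (gi d.s₁)) (d.E q) (d.N q) k χ) ∧
      tsupport (H867.Z.Zc K 1 (H464.Cu.rq (gi d.s₁)) (d.E q) (d.N q) k χ) ⊆ tsupport χ := by
  have h0 : ∀ z, z ∉ tsupport χ → H867.Z.Zc K 1 (H464.Cu.rq (gi d.s₁)) (d.E q) (d.N q) k χ z = 0 := by
    intro z hz
    have h1 : χ =ᶠ[𝓝 z] fun _ => 0 := by
      filter_upwards [(isClosed_tsupport χ).isOpen_compl.mem_nhds hz] with w hw
      exact image_eq_zero_of_notMem_tsupport hw
    have h2 : sq1 χ z = 0 := (H867.Z.sq1_ev h1).self_of_nhds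
    have h3 : sqp χ z = 0 := (H867.Z.sqp_ev h1).self_of_nhds
    unfold H867.Z.Zc
    rw [h2, h3]
    simp
  refine ⟨?_, supp_of h0⟩
  rw [continuous_iff_continuousAt]
  intro z
  by_cases hz : z ∈ tsupport χ
  · have h1 := hs z hz
    have h2 : k z ≠ 0 := (hk0 z h1).ne'
    have h3 : (2 : ℝ) * H464.Cu.rq (gi d.s₁) z ≠ 0 := (show 0 < d.r2 z from h1).ne'
    have ck := hk.continuousAt (c.oOm.mem_nhds h1)
    have cρ := c.s.rq.continuous.continuousAt (x := z)
    have a1 := (sq1_sm hχ).continuous.continuousAt (x := z)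
    have a2 := (sqp_sm hχ).continuous.continuousAt (x := z)
    have aE := c.cE.continuousAt (x := z)
    have aN := c.cN.continuousAt (x := z)
    unfold H867.Z.Zc
    refine ContinuousAt.div (continuousAt_const.mul (((continuousAt_const.mul cρ).mul a1).mul
      ((continuousAt_const.add ((aN.add ck).div (aE.mul (continuousAt_const.mul cρ)) ?_)).pow 2)
      |>.add a2)) (continuousAt_const.mul ck) ?_
    · exact mul_ne_zero (E0 z).ne' h3
    · rw [one_mul]
      exact h2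
  · refine (continuousAt_const (y := (0 : ℝ))).congr ?_
    filter_upwards [(isClosed_tsupport χ).isOpen_compl.mem_nhds hz] with w hw
    exact (h0 w hw).symm

end CF

/-! ### The letters of the passes -/

section P

variable {U : Set (VV n)} {σ τ : Sl (VV n) (Fin n)} {θ W G om : VV n → ℝ} {c C : ℝ}

theorem ct_MP (ok : σ.Ok U θ) (ot : τ.Ok U θ) (hW : Sm U W) (hG : ContinuousOn G U) :
    (H660.P.MP σ τ W G c).Ct U :=
  ⟨continuousOn_const, continuousOn_const.mul hG, continuousOn_const.mul hG, continuousOn_const,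
    continuousOn_const.mul (hG.mul (hG.add (s_F ok hW).continuousOn)),
    continuousOn_const.mul (hG.mul (s_F ot hW).continuousOn), continuousOn_const,
    continuousOn_const⟩

theorem ct_MPm (ok : σ.Ok U θ) (ot : τ.Ok U θ) (hW : Sm U W) (hG : ContinuousOn G U) :
    (H660.P.MPm σ τ W G c).Ct U :=
  ⟨continuousOn_const, continuousOn_const.mul hG, continuousOn_const.mul hG, continuousOn_const,
    continuousOn_const.mul (hG.mul (s_F ok hW).continuousOn),
    continuousOn_const.mul (hG.mul (hG.add (s_F ot hW).continuousOn)), continuousOn_const,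
    continuousOn_const⟩

variable {Ω : Set (VV n)}

theorem ct_coP (ok : σ.Ok U θ) (ot : τ.Ok U θ) (hW : Sm U W) (hΩ : IsOpen Ω)
    (hG : ContinuousOn G Ω) (ho : ContinuousOn om U) (hs : U ∩ tsupport om ⊆ Ω) :
    (H660.P.coP σ τ W G om C).Ct U :=
  have hF := (s_F ok hW).continuousOn
  have h1 : ContinuousOn (fun z => om z * G z) U := c_supp ok.op hΩ ho hG hs
  have h2 : ContinuousOn (fun z => om z * (G z + σ.F W z)) U :=
    (h1.add (ho.mul hF)).congr fun z _ => by simp only [Pi.add_apply, Pi.mul_apply]; ring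
  ⟨continuousOn_const, continuousOn_const.mul ho, continuousOn_const.mul ho, continuousOn_const,
    continuousOn_const.mul h2, continuousOn_const.mul (ho.mul (s_F ot hW).continuousOn),
    continuousOn_const, continuousOn_const⟩

theorem ct_coPm (ok : σ.Ok U θ) (ot : τ.Ok U θ) (hW : Sm U W) (hΩ : IsOpen Ω)
    (hG : ContinuousOn G Ω) (ho : ContinuousOn om U) (hs : U ∩ tsupport om ⊆ Ω) :
    (H660.P.coPm σ τ W G om C).Ct U :=
  have hF := (s_F ot hW).continuousOn
  have h1 : ContinuousOn (fun z => om z * G z) U := c_supp ok.op hΩ ho hG hs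
  have h2 : ContinuousOn (fun z => om z * (G z + τ.F W z)) U :=
    (h1.add (ho.mul hF)).congr fun z _ => by simp only [Pi.add_apply, Pi.mul_apply]; ring
  ⟨continuousOn_const, continuousOn_const.mul ho, continuousOn_const.mul ho, continuousOn_const,
    continuousOn_const.mul (ho.mul (s_F ok hW).continuousOn), continuousOn_const.mul h2,
    continuousOn_const, continuousOn_const⟩

theorem ct_cTu {N ρx ρy Z : VV n → ℝ} (hN : ContinuousOn N U) (hx : ContinuousOn ρx U)
    (hy : ContinuousOn ρy U) (hZ : ContinuousOn Z U) : (cTu C N ρx ρy Z).Ct U :=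
  have h : ContinuousOn (fun z => C * (N z * (ρx z ^ 2 + ρy z ^ 2) * Z z)) U :=
    continuousOn_const.mul ((hN.mul ((hx.pow 2).add (hy.pow 2))).mul hZ)
  ⟨continuousOn_const, continuousOn_const, continuousOn_const, continuousOn_const, h, h,
    continuousOn_const, continuousOn_const⟩

end P

/-! ### The row -/

/-- **The free functions of the letters.** -/
structure LcCt (L : Lc n) : Prop where
  kz : EvC fun q => ∀ d : Pk n, PkOk q d → ContinuousOn (L.kz q d) (CF.Om d) ∧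
    ∀ z ∈ CF.Om d, 0 < L.kz q d z
  ZB : EvC fun q => ∀ d : Pk n, PkOk q d → Continuous (L.ZB q d) ∧ Continuous (L.ZB' q d)
  GP : EvC fun q => ∀ d : Pk n, PkOk q d → ContinuousOn (L.GP q d) (CF.Om d) ∧
    (Continuous (L.om .P1 q d) ∧ ∀ z, z ∉ tsupport (d.ch q .P1) → L.om .P1 q d z = 0) ∧
    (Continuous (L.om .P2 q d) ∧ ∀ z, z ∉ tsupport (d.ch q .P2) → L.om .P2 q d z = 0)
  F : ∀ k : Zo, k = .iH ∨ k = .iF ∨ k = .iS ∨ k = .RSn ∨ k = .RSf →
    EvC fun q => ∀ d : Pk n, PkOk q d → ((L.FM k q d).sm fun z => d.ch q k z ^ 2).Ct univ ∧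
      (L.FC k q d).Ct univ

/-- A margin and a cost of the type of zone A with a continuous weight (for `RSn`, `RSf`). -/
theorem CF.ctA (c : CF q d) (k : Zo) {m : VV n → ℝ} {κ₀ η : ℝ} (hm : Continuous m)
    (h0 : ∀ z, 0 ≤ m z) : ((H747.SW.MA d.sx d.sy (d.W q) m κ₀).sm fun z => d.ch q k z ^ 2).Ct univ ∧
      (H747.SW.coA d.sx d.sy (d.W q) m (d.ch q k) η).Ct univ :=
  ⟨Q8.Ct.sm ((c.s.ch k).continuous.pow 2).continuousOn
    (ct_MA c.ox c.oy c.W.contDiffOn hm.continuousOn),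
  ct_coA c.ox c.oy c.W.contDiffOn (c.s.ch k).contDiffOn isOpen_univ hm.continuousOn
    (fun z _ => h0 z) fun _ _ => mem_univ _⟩

/-- Zone A. -/
theorem CF.ctOff (c : CF q d) {k : Zo} (hk : Off k) {μ : Cst → ℝ} (hμ : 0 < μ q) {κ₀ η : ℝ} :
    ((H747.SW.MA d.sx d.sy (d.W q) (H747.A.mA μ q d) κ₀).sm fun z => d.ch q k z ^ 2).Ct univ ∧
      (H747.SW.coA d.sx d.sy (d.W q) (H747.A.mA μ q d) (d.ch q k) η).Ct univ := by
  have ox' := H960.W.Ok_mono c.ox c.oOm (subset_univ _)
  have oy' := H960.W.Ok_mono c.oy c.oOm (subset_univ _)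
  exact ⟨Q8.Ct.supp2 isOpen_univ c.oOm (c.s.ch k).continuous.continuousOn
    (ct_MA ox' oy' c.W.contDiffOn c.cmA) fun z hz => c.off hk hz.2,
    ct_coA c.ox c.oy c.W.contDiffOn (c.s.ch k).contDiffOn c.oOm c.cmA
      (fun z hz => c.mA0 hμ hz) fun z hz => c.off hk hz.2⟩

/-- Zone II. -/
theorem CF.ct2 (c : CF q d) {k : Zo} (hs : ∀ z ∈ tsupport (d.ch q k), z ∈ CF.Om d)
    {kz : Cst → Pk n → VV n → ℝ} (hk : ContinuousOn (kz q d) (CF.Om d))
    (hk0 : ∀ z ∈ CF.Om d, 0 < kz q d z) {C K : ℝ} :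
    ((H165.Tab.MII (nu kz q d)).sm fun z => d.ch q k z ^ 2).Ct univ ∧
      (H165.Tab.cII (nu kz q d) C (H867.Z.Zc K 1 (H464.Cu.rq (gi d.s₁)) (d.E q) (d.N q)
        (kz q d) (d.ch q k))).Ct univ := by
  have h1 := c.cZc (K := K) hk hk0 (c.s.ch k) hs
  refine ⟨Q8.Ct.supp2 isOpen_univ c.oOm (c.s.ch k).continuous.continuousOn
    (ct_MII (c.nuct hk) fun z hz => (show 0 < d.r2 z from hz).ne') fun z hz => hs z hz.2, ?_⟩
  refine Q8.Ct.supp isOpen_univ c.oOm (continuousOn_const.mul h1.1.continuousOn)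
    (ct_uf (c.nuct hk) fun z hz => (show 0 < d.r2 z from hz).ne')
    fun z hz => hs z (h1.2 (supp_of (fun w hw => ?_) hz.2))
  rw [image_eq_zero_of_notMem_tsupport hw, mul_zero]

/-- **Row Ct for the literal letters.** -/
theorem ctE {L : Lc n} (hL : L.Ok) (h : LcCt L) : CtE L := by
  intro e _
  have hF : EvC fun q => ∀ k : Zo, k = .iH ∨ k = .iF ∨ k = .iS ∨ k = .RSn ∨ k = .RSf →
      ∀ d : Pk n, PkOk q d → ((L.FM k q d).sm fun z => d.ch q k z ^ 2).Ct univ ∧
        (L.FC k q d).Ct univ := by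
    refine evZo (P := fun k q => (k = .iH ∨ k = .iF ∨ k = .iS ∨ k = .RSn ∨ k = .RSf) →
      ∀ d : Pk n, PkOk q d → ((L.FM k q d).sm fun z => d.ch q k z ^ 2).Ct univ ∧
        (L.FC k q d).Ct univ) fun k => ?_
    by_cases hk : k = .iH ∨ k = .iF ∨ k = .iS ∨ k = .RSn ∨ k = .RSf
    · exact (h.F k hk).mono fun _ h _ => h
    · exact EvC.of fun _ hk' => absurd hk' hk
  refine (((evCF n).and h.kz).and ((h.ZB.and h.GP).and hF)).mono ?_
  rintro q ⟨⟨hC, hk⟩, ⟨hZ, hG⟩, hF⟩ d ok k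
  have c := hC d ok
  obtain ⟨k1, k2⟩ := hk d ok
  obtain ⟨z1, z2⟩ := hZ d ok
  obtain ⟨g1, g2, g3⟩ := hG d ok
  have hχ : ∀ k, ContinuousOn (fun z => d.ch q k z ^ 2) univ := fun k =>
    ((c.s.ch k).continuous.pow 2).continuousOn
  have hW : Sm univ (d.W q) := c.W.contDiffOn
  have hW' : Sm (CF.Om d) (d.W q) := c.W.contDiffOn
  have ox' := H960.W.Ok_mono c.ox c.oOm (subset_univ _)
  have oy' := H960.W.Ok_mono c.oy c.oOm (subset_univ _)
  have hN := c.cNa.continuousOn (s := univ)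
  have het := H354.T.et_ct c.s ok.Φ's.continuous c.r ok c.M1 c.T0
  have h0 : ∀ z ∈ (univ : Set (VV n)), 0 ≤ H455.E.sg L q * d.N q z := fun z _ => by
    have h1 := (hL.cs.1 q).1
    have h2 := c.σ0
    have h3 := c.R0
    have h4 := c.N0 z
    unfold H455.E.sg
    positivity
  cases k
  case iH => exact hF _ (Or.inl rfl) d ok
  case iF => exact hF _ (Or.inr (Or.inl rfl)) d ok
  case iS => exact hF _ (Or.inr (Or.inr (Or.inl rfl))) d ok
  case RSn => exact hF _ (Or.inr (Or.inr (Or.inr (Or.inl rfl)))) d ok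
  case RSf => exact hF _ (Or.inr (Or.inr (Or.inr (Or.inr rfl)))) d ok
  case z0 =>
    have m := ct_M0 (c := L.c0 q) (s := H455.E.sg L q) c.nuct0
    have m' := ct_c0 (C := L.C0 q) (s := H455.E.sg L q) (η := e q) c.nuct0 h0
      (c.csq1 .z0).continuousOn
    exact ⟨Q8.Ct.sm (hχ _) m, m'⟩
  case zI =>
    have m := Q8.Ct.add (ct_MI (c := L.cI q) c.nuct0)
      (H338.C.TL_ct (cT := L.cN q) hN c.crx.continuousOn c.cry.continuousOn)
    have m' := Q8.Ct.add (ct_cI (C := L.CI q) c.nuct0 (c.csq1 .zI).continuousOn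
      (c.csqp .zI).continuousOn) (ct_cTu (C := L.CN q) hN c.crx.continuousOn c.cry.continuousOn
      (c.csq1 .zI).continuousOn)
    exact ⟨Q8.Ct.sm (hχ _) m, m'⟩
  case z2a => exact c.ct2 (fun z hz => c.z2a hz) k1 k2
  case z2b => exact c.ct2 (fun z hz => c.z2b hz) k1 k2
  case zB =>
    have m := ct_MB (c := L.cB q) c.nuct0
    have m' := ct_cB (C := L.CB q) c.nuct0 z1.continuousOn z2.continuousOn
    exact ⟨Q8.Ct.sm (hχ _) m, m'⟩
  case T1 =>
    exact ⟨Q8.Ct.sm (hχ _) (ct_MT1 hN), ct_coT1 hN (fun z _ => c.Na0 z) het.1.continuousOn⟩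
  case T2 =>
    exact ⟨Q8.Ct.sm (hχ _) (ct_MT2 hN), ct_coT2 hN (fun z _ => c.Na0 z) het.2.continuousOn⟩
  case A1 => exact c.ctOff (by unfold Off; decide) (hL.μA.1 q)
  case A2 => exact c.ctOff (by unfold Off; decide) (hL.μA.1 q)
  case Af => exact c.ctOff (by unfold Off; decide) (hL.μA.1 q)
  case P1 =>
    exact ⟨Q8.Ct.supp2 isOpen_univ c.oOm (c.s.ch _).continuous.continuousOn
      (ct_MP ox' oy' hW' g1) fun z hz => c.off (by unfold Off; decide) hz.2,
      ct_coP c.ox c.oy hW c.oOm g1 g2.1.continuousOn fun z hz =>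
        c.off (by unfold Off; decide) (supp_of g2.2 hz.2)⟩
  case P2 =>
    exact ⟨Q8.Ct.supp2 isOpen_univ c.oOm (c.s.ch _).continuous.continuousOn
      (ct_MPm ox' oy' hW' g1) fun z hz => c.off (by unfold Off; decide) hz.2,
      ct_coPm c.ox c.oy hW c.oOm g1 g3.1.continuousOn fun z hz =>
        c.off (by unfold Off; decide) (supp_of g3.2 hz.2)⟩

end Vale.Agent.P088.R2.H493.EP
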