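import Vale.Agent.P088.R2.H493.EP.CtL
import Vale.Agent.P088.R2.H558.G.Shape
import Vale.Agent.P088.R2.H867.Z.HoL
import Vale.Agent.P088.R2.H870.Z2.Kz
import Vale.Agent.P088.R2.H53.RS.Lt
import Vale.Agent.P088.R2.H303.F.Lt
import Vale.Agent.P088.R2.H380.INF.Let
import Vale.Agent.P088.R2.H168.INF.Spec2
import Vale.Agent.P088.R2.H660.P.Rows
import Vale.Agent.P088.R2.H404.INF.Alv

/-!
# P088, stage 3, EST': continuity of the literal letters, the functions

`LfCt F`: the conditions on the literal functions; `ct_of : LfCt F → ∀ L, L.Ok → Lit F L → CtE L`. The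
conditions are proved for helper870's `d.kz`, helper867's `d.ZB`, `d.ZB'`, helper747's `GG` and for the
letters of the leaves `RSn` (312), `RSf` (53), `iF` (303), `iS` (380), `iH` (168), `omP` (660).
-/

open Set Filter MeasureTheory
open scoped ContDiff Topology Matrix

noncomputable section

namespace Vale.Agent.P088.R2.H493.EP

open Vale.Agent.P088.LR Vale.Agent.P088.HY
open Vale.Agent.P088.R2.H31.EP
open Vale.Agent.P088.R2.H551.E Vale.Agent.P088.R2.H961.GW Vale.Agent.P088.R2.H960.W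
open Vale.Agent.P088.R2.H867.EP (Zo Cut path sd Off alive_RSf cs_sm)
open Vale.Agent.P088.R2.H455.E
open Vale.Agent.P088.R2.H341.EP
open Vale.Agent.P088.R2.H558.G (Lf Lit)
open Vale.Agent.P088.R2.H464.Cu (mid dif rq)

variable {n : ℕ} {q : Cst} {d : Pk n}

/-- **The literal functions of the letters.** -/
structure LfCt (F : Lf n) : Prop where
  kz : EvC fun q => ∀ d : Pk n, PkOk q d → ContinuousOn (F.kz q d) (CF.Om d) ∧
    ∀ z ∈ CF.Om d, 0 < F.kz q d z
  ZB : ∀ K : Cst → ℝ, EvC fun q => ∀ d : Pk n, PkOk q d →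
    Continuous (F.ZB (K q) q d) ∧ Continuous (F.ZB' (K q) q d)
  GP : EvC fun q => ∀ d : Pk n, PkOk q d → ContinuousOn (F.GP q d) (CF.Om d) ∧
    (Continuous (F.om .P1 q d) ∧ ∀ z, z ∉ tsupport (d.ch q .P1) → F.om .P1 q d z = 0) ∧
    (Continuous (F.om .P2 q d) ∧ ∀ z, z ∉ tsupport (d.ch q .P2) → F.om .P2 q d z = 0)
  F : ∀ k : Zo, k = .iH ∨ k = .iF ∨ k = .iS ∨ k = .RSn ∨ k = .RSf →
    EvC fun q => ∀ d : Pk n, PkOk q d → ((F.FM k q d).sm fun z => d.ch q k z ^ 2).Ct univ ∧
      (F.FC k q d).Ct univ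

/-- **The field `ct` of `Rest F`.** -/
theorem ct_of {F : Lf n} (h : LfCt F) (L : Lc n) (hL : L.Ok) (hF : Lit F L) : CtE L := by
  obtain ⟨K, -, -, k1, k2⟩ := hF.ZB
  refine ctE hL ⟨?_, ?_, ?_, ?_⟩
  · rw [hF.kz]
    exact h.kz
  · rw [k1, k2]
    exact h.ZB K
  · rw [hF.GP, hF.om]
    exact h.GP
  · rw [hF.FM, hF.FC]
    exact h.F

namespace CF

/-! ### The weight of zone II -/

theorem dl_pos : 0 < H313.Mu.dl 1 := by
  unfold H313.Mu.dl
  positivity

/-- `hm` is positive and continuous on the line. -/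
theorem hm_ct {A C t : ℝ} (hA : 0 < A) : Continuous (H932.EP.hm A C t) ∧
    ∀ s, 0 < H932.EP.hm A C t s := by
  constructor
  · exact ((Real.continuous_rpow_const (by norm_num)).div_const _).add
      (Real.continuous_exp.comp (by fun_prop))
  · intro s
    rcases le_total 0 s with h | h
    · exact H932.EP.hm_pos hA h
    · have h1 := Real.exp_pos (-(C * (s - t)))
      rcases h.lt_or_eq with h | h
      · have h2 : s ^ (5 / 2 : ℝ) = 0 := by
          rw [Real.rpow_def_of_neg h]
          have : (5 / 2 : ℝ) * Real.pi = Real.pi / 2 + 2 * Real.pi := by ring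
          rw [this, Real.cos_add_two_pi, Real.cos_pi_div_two, mul_zero]
        unfold H932.EP.hm
        rw [h2, zero_div, zero_add]
        exact h1
      · exact H932.EP.hm_pos hA h.ge

theorem mu2_ct {A C t : ℝ} (hA : 0 < A) : Continuous (H932.EP.mu2 A C t) ∧
    ∀ s, 0 < H932.EP.mu2 A C t s :=
  ⟨(hm_ct hA).1.inv₀ fun s => ((hm_ct hA).2 s).ne', fun s => inv_pos.2 ((hm_ct hA).2 s)⟩

/-- **The convexity weight of zone II.** -/
theorem kz (c : CF q d) : Continuous (d.kz q) ∧ ∀ z ∈ Om d, 0 < d.kz q z := by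
  have hA : 0 < Amz := by
    have := dl_pos
    unfold Amz
    positivity
  have hS : 0 ≤ q.σ / q.R := (div_pos c.σ0 c.R0).le
  have hu := c.s.u.continuous
  have hl : Continuous fun z : VV n => d.l (mid z) := by
    have h1 : Continuous (mid : VV n → V n) := by
      have e : (mid : VV n → V n) = fun z => (1 / 2 : ℝ) • (z.1 + z.2) := rfl
      rw [e]
      fun_prop
    exact c.ok.l_sm.continuous.comp h1
  have c1 : Continuous (H932.EP.mm (d.u q) (rq (gi d.s₁))) :=
    (continuous_const.mul (Real.continuous_exp.comp hu)).mul c.s.rq.continuous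
  have c0 : ∀ z, 0 ≤ H932.EP.mm (d.u q) (rq (gi d.s₁)) z := fun z => by
    have := c.s.rq0 z
    unfold H932.EP.mm
    positivity
  have c2 : Continuous (H932.EP.kq (deriv (deriv d.Φ)) (d.u q) (rq (gi d.s₁))) := by
    refine c.cK.div (c.cK.add c1) fun z => ?_
    have h1 : 0 < deriv (deriv d.Φ) (d.u q z) := c.ok.top.k0 _
    have h2 := c0 z
    positivity
  have c3 := (mu2_ct (A := Amz) (C := Cmz) (t := q.t₂) hA)
  refine ⟨continuous_const.mul (c1.mul ((c2.add (c3.1.comp hl)).add continuous_const)), ?_⟩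
  intro z hz
  have h0 : 0 < rq (gi d.s₁) z := by
    have h1 : 0 < 2 * rq (gi d.s₁) z := hz
    linarith
  exact H932.EP.kk_pos (by unfold c₁z; norm_num) hS h0 (c.ok.top.k0 _) (c3.2 _).le

/-! ### The letters of zone B1 -/

theorem cSt (c : CF q d) (i : Cut) (a b : ℝ) :
    Continuous fun z => Real.smoothTransition (a * d.cv q i z + b) :=
  Real.smoothTransition.continuous.comp
    ((continuous_const.mul (c.s.cv i).continuous).add continuous_const)

theorem ccs (c : CF q d) : Continuous fun z => H867.EP.cs (d.cv q .inf z) :=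
  cs_sm.continuous.comp (c.s.cv .inf).continuous

theorem cT1B (c : CF q d) : Continuous (d.T1B q) :=
  (((c.cSt .co _ _).mul (c.cSt .co _ _)).mul (c.cSt .eB _ _)).mul c.ccs

theorem cT2B (c : CF q d) : Continuous (d.T2B q) :=
  (((c.cSt .eB _ _).mul (c.cSt .eB _ _)).mul (c.cSt .co _ _)).mul c.ccs

/-- **The factors of the costs of zone B1.** -/
theorem ZB (c : CF q d) (K : ℝ) : Continuous (d.ZB q K) ∧ Continuous (d.ZB' q K) := by
  have cm : Continuous (H867.Z.mB (d.E q) (rq (gi d.s₁))) :=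
    c.cE.mul (continuous_const.mul c.s.rq.continuous)
  have m0 : ∀ z, 0 ≤ H867.Z.mB (d.E q) (rq (gi d.s₁)) z := fun z =>
    mul_nonneg (E0 z).le (c.r2n z)
  constructor
  · refine continuous_const.mul ((continuous_const.mul c.cT1B).add (c.cT2B.mul
      ((continuous_const.add cm).div ((c.cN.add continuous_const).add cm) fun z => ?_)))
    have h1 := c.N0 z
    have h2 := m0 z
    exact (show 0 < d.N q z + 1 + H867.Z.mB (d.E q) (rq (gi d.s₁)) z by linarith).ne'
  · refine continuous_const.mul (((continuous_const.mul c.cT1B).div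
      ((continuous_const.add cm).pow 2) fun z => ?_).add (c.cT2B.div c.cE fun z => (E0 z).ne'))
    have h2 := m0 z
    exact pow_ne_zero 2 (show 0 < 1 + H867.Z.mB (d.E q) (rq (gi d.s₁)) z by linarith).ne'

/-! ### `RSn`, `RSf` -/

/-- **`RSn`.** -/
theorem RSn (c : CF q d) (k : Zo) {κ₀ η : ℝ} :
    ((H747.SW.MA d.sx d.sy (d.W q) (fun z => q.σ / q.R * d.NG q z) κ₀).sm
      fun z => d.ch q k z ^ 2).Ct univ ∧
      (H747.SW.coA d.sx d.sy (d.W q) (fun z => q.σ / q.R * d.NG q z) (d.ch q k) η).Ct univ := by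
  refine c.ctA k (continuous_const.mul c.s.NG.continuous) fun z => ?_
  have h1 := c.s.NGg z
  have h2 := c.M1
  exact mul_nonneg (div_pos c.σ0 c.R0).le (by linarith)

end CF

/-- Off the diagonal. -/
def Oq (n : ℕ) : Set (VV n) := {z | 0 < H31.EP.qq z}

theorem oOq : IsOpen (Oq n) := isOpen_lt continuous_const qq_sm.continuous

/-- The facts with the comparison of the distances. -/
structure CG (q : Cst) (d : Pk n) : Prop where
  c : CF q d
  rqq : ∀ z : VV n, d.r2 z ≤ 2 * H31.EP.qq z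
  rql : ∀ z : VV n, 1 / 2 * H31.EP.qq z ≤ d.r2 z
  inf : H404.INF.InfC q

theorem evCG (n : ℕ) : EvC fun q => ∀ d : Pk n, PkOk q d → CG q d :=
  ((evCF n).and ((EvC.rq n).and H404.INF.evInf)).mono fun _ h d ok =>
    ⟨h.1 d ok, fun z => ((h.2.1 d ok).2 z).2.2, fun z => ((h.2.1 d ok).2 z).2.1, h.2.2⟩

namespace CG

theorem sub (c : CG q d) : CF.Om d ⊆ Oq n := fun z hz => by
  have h1 := c.rqq z
  have h2 : 0 < d.r2 z := hz
  show 0 < H31.EP.qq z
  linarith

/-- Margins and costs of the type of zone A with a weight which is continuous off the diagonal. -/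
theorem ctA (c : CG q d) {k : Zo} (hs : ∀ z ∈ tsupport (d.ch q k), z ∈ Oq n) {m : VV n → ℝ}
    {κ₀ η : ℝ} (hm : ContinuousOn m (Oq n)) (h0 : ∀ z ∈ Oq n, 0 ≤ m z) :
    ((H747.SW.MA d.sx d.sy (d.W q) m κ₀).sm fun z => d.ch q k z ^ 2).Ct univ ∧
      (H747.SW.coA d.sx d.sy (d.W q) m (d.ch q k) η).Ct univ := by
  have ox' := H960.W.Ok_mono c.c.ox oOq (subset_univ _)
  have oy' := H960.W.Ok_mono c.c.oy oOq (subset_univ _)
  exact ⟨Q8.Ct.supp2 isOpen_univ oOq (c.c.s.ch k).continuous.continuousOn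
    (ct_MA ox' oy' c.c.W.contDiffOn hm) fun z hz => hs z hz.2,
    ct_coA c.c.ox c.c.oy c.c.W.contDiffOn (c.c.s.ch k).contDiffOn oOq hm h0
      fun z hz => hs z hz.2⟩

theorem csq : Continuous fun z : VV n => √(H31.EP.qq z) := qq_sm.continuous.sqrt

theorem sq0 {z : VV n} (hz : z ∈ Oq n) : 0 < √(H31.EP.qq z) := Real.sqrt_pos.2 hz

/-- **`RSf`.** -/
theorem RSf (c : CG q d) {κ₀ η : ℝ} :
    ((H747.SW.MA d.sx d.sy (d.W q) (H53.RS.mRSf d q) κ₀).sm
      fun z => d.ch q .RSf z ^ 2).Ct univ ∧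
      (H747.SW.coA d.sx d.sy (d.W q) (H53.RS.mRSf d q) (d.ch q .RSf) η).Ct univ := by
  have hL : ContinuousOn (fun z : VV n => Real.log (prS q.e₁ (H31.EP.qq z))) (Oq n) := by
    refine (c.c.r.pp.contDiff_Ph.continuous.comp qq_sm.continuous).continuousOn.log
      fun z hz => (c.c.r.pp.S_pos hz).ne'
  have hD : ContinuousOn (fun z : VV n => q.D 1 0 (d.u0 z + Real.log (prS q.e₁ (H31.EP.qq z)),
      √(H31.EP.qq z))) (Oq n) :=
    (c.c.ok.sl.sm 1 0).continuousOn.comp ((c.c.s.u0.continuous.continuousOn.add hL).prodMk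
      csq.continuousOn) fun z hz => sq0 hz
  refine c.ctA (fun z hz => ?_) (continuousOn_const.mul (c.c.cNa.continuousOn.add hD))
    fun z hz => ?_
  · refine c.sub ?_
    have h1 : (d.cp q).q₁ ^ 2 ≤ d.r2 z := by
      refine closure_minimal (s := Function.support (d.ch q .RSf))
        (t := {z | (d.cp q).q₁ ^ 2 ≤ d.r2 z}) (fun w hw => ?_)
        (isClosed_le continuous_const c.c.cr2) hz
      exact alive_RSf (u := d.u q) (X := d.X q) Fl_pair c.c.s.cp (Function.mem_support.1 hw)
    have h2 := pow_pos c.c.s.cp.q₁ 2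
    show 0 < d.r2 z
    linarith
  · have h1 : 0 < q.D 1 0 (d.u0 z + Real.log (prS q.e₁ (H31.EP.qq z)), √(H31.EP.qq z)) :=
      c.c.ok.sl.G_pos _ (sq0 hz)
    have h2 := c.c.Na0 z
    have h3 := c.c.σ0
    have h4 := c.c.R0
    have h5 : 0 < deriv d.Φ (d.u0 z) := h2
    unfold H53.RS.mRSf
    positivity

/-! ### The leaf iF -/

theorem sub' (c : CG q d) : Oq n ⊆ CF.Om d := fun z hz => by
  have h1 := c.rql z
  have h2 : 0 < H31.EP.qq z := hz
  show 0 < d.r2 z
  linarith

/-- The leaf iF is off the diagonal. -/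
theorem suppF (c : CG q d) {z : VV n} (hz : z ∈ tsupport (d.ch q .iF)) : z ∈ CF.Om d := by
  refine c.sub' ?_
  have h1 := (H404.INF.far_supp c.inf c.c.ok hz).q
  have h2 := c.inf.κ0
  have h3 := c.inf.R0
  have h4 : 0 < √(HY.sq (z.1 - z.2)) := lt_of_lt_of_le (by positivity) h1
  exact Real.sqrt_pos.1 h4

theorem cΘ (c : CG q d) : Continuous (deriv d.Θ) :=
  (contDiff_infty_iff_deriv.1 c.c.ok.Θs).2.continuous

theorem cl1 (c : CG q d) : Continuous fun z : VV n => d.l z.1 :=
  c.c.ok.l_sm.continuous.comp continuous_fst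

theorem cl2 (c : CG q d) : Continuous fun z : VV n => d.l z.2 :=
  c.c.ok.l_sm.continuous.comp continuous_snd

theorem cnn (c : CG q d) : ContinuousOn (H269.INF.nn q d) (CF.Om d) := by
  have c0 : ContinuousOn (H768.FarJ.jr d) (CF.Om d) := c.c.cr2.sqrt.continuousOn
  have h0 : ∀ z ∈ CF.Om d, 0 < H768.FarJ.jr d z := fun z hz => Real.sqrt_pos.2 hz
  have cL : ContinuousOn (fun z : VV n => Real.log (prS q.e₁ (H31.EP.r2 (gi d.s₁) z)))
      (CF.Om d) :=
    (c.c.r.pp.contDiff_Ph.continuous.comp c.c.cr2).continuousOn.log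
      fun z hz => (c.c.r.pp.S_pos hz).ne'
  have cφ : ContinuousOn (H768.FarJ.jφ q d) (CF.Om d) := (c.cl1.add c.cl2).continuousOn.add cL
  exact (c.c.ok.Φ's.continuous.comp (c.cl1.add c.cl2)).continuousOn.add
    ((c.c.ok.sl.sm 1 0).continuousOn.comp (cφ.prodMk c0) fun z hz => h0 z hz)

theorem cnx (c : CG q d) : ContinuousOn (H269.INF.nx q d) (CF.Om d) :=
  c.cnn.add (c.cΘ.comp c.cl1).continuousOn

theorem cny (c : CG q d) : ContinuousOn (H269.INF.ny q d) (CF.Om d) :=
  c.cnn.add (c.cΘ.comp c.cl2).continuousOn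

/-- **`iF`.** -/
theorem iF (c : CG q d) : ((H303.F.MzF q d).sm fun z => d.ch q .iF z ^ 2).Ct univ ∧
    (H303.F.cozF q d).Ct univ := by
  have ox' := H960.W.Ok_mono c.c.ox c.c.oOm (subset_univ _)
  have oy' := H960.W.Ok_mono c.c.oy c.c.oOm (subset_univ _)
  have hW' : Sm (CF.Om d) (d.W q) := c.c.W.contDiffOn
  have hχ : Sm univ (d.ch q .iF) := (c.c.s.ch _).contDiffOn
  have m1 : ContinuousOn (H303.F.mX (1 / 100) q d) (CF.Om d) := continuousOn_const.mul c.cnx
  have m2 : ContinuousOn (H303.F.mY (1 / 100) q d) (CF.Om d) := continuousOn_const.mul c.cny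
  constructor
  · refine Q8.Ct.supp2 isOpen_univ c.c.oOm (c.c.s.ch _).continuous.continuousOn ?_
      fun z hz => c.suppF hz.2
    exact ⟨continuousOn_const, m1, m2, continuousOn_const,
      continuousOn_const.mul (m1.mul (s_F ox' hW').continuousOn),
      continuousOn_const.mul (m2.mul (s_F oy' hW').continuousOn), continuousOn_const,
      continuousOn_const⟩
  · have a1 : ContinuousOn (fun z => d.sx.Γ (d.ch q .iF) (d.ch q .iF) z *
        H303.F.mX (1 / 100) q d z) univ :=
      c_supp isOpen_univ c.c.oOm (c.c.ox.sG hχ hχ).continuousOn m1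
        fun z hz => c.suppF (G_supp _ _ hz.2)
    have a2 : ContinuousOn (fun z => d.sy.Γ (d.ch q .iF) (d.ch q .iF) z *
        H303.F.mY (1 / 100) q d z) univ :=
      c_supp isOpen_univ c.c.oOm (c.c.oy.sG hχ hχ).continuousOn m2
        fun z hz => c.suppF (G_supp _ _ hz.2)
    refine ⟨continuousOn_const, continuousOn_const, continuousOn_const, continuousOn_const,
      continuousOn_const.mul (a1.congr fun z _ => mul_comm _ _),
      continuousOn_const.mul (a2.congr fun z _ => mul_comm _ _), continuousOn_const,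
      continuousOn_const⟩

/-! ### The leaves iS, iH -/

/-- The three terms of the costs. -/
theorem cost3 {σ : Sl (VV n) (Fin n)} {W χ lam : VV n → ℝ} (ok : σ.Ok univ fun _ => 1)
    (hW : Sm univ W) (hχ : Sm univ χ) (hl : Continuous lam) (a b e : ℝ) :
    ContinuousOn (fun z => a * lam z * σ.Γ χ χ z + b * H168.INF.HH σ W z (fun i => σ.D i χ z) +
      e * |χ z * σ.Γ χ (σ.Λ W) z|) univ ∧
    ContinuousOn (fun z => a * lam z * σ.Γ χ χ z + b * |H168.INF.HH σ W z (fun i => σ.D i χ z)| +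
      e * |χ z * σ.Γ χ (σ.Λ W) z|) univ := by
  have h1 : ContinuousOn (fun z => a * lam z * σ.Γ χ χ z) univ :=
    (continuousOn_const.mul hl.continuousOn).mul (ok.sG hχ hχ).continuousOn
  have h2 := (H168.INF.sHH ok hW hχ).continuousOn
  have h3 : ContinuousOn (fun z => e * |χ z * σ.Γ χ (σ.Λ W) z|) univ :=
    continuousOn_const.mul (hχ.mul (ok.sG hχ (ok.sL hW))).continuousOn.abs
  exact ⟨(h1.add (continuousOn_const.mul h2)).add h3,
    (h1.add (continuousOn_const.mul h2.abs)).add h3⟩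

/-- Margins of the form of iS and iH. -/
theorem marg {W lam mu nX nY χ : VV n → ℝ} {σ τ : Sl (VV n) (Fin n)}
    (ok : σ.Ok univ fun _ => 1) (ot : τ.Ok univ fun _ => 1) (hW : Sm univ W)
    (hl : Continuous lam) (hm : Continuous mu) (hX : Continuous nX) (hY : Continuous nY)
    (hχ : Continuous χ) (a b e : ℝ) :
    (Q8.sm (fun z => χ z ^ 2) (⟨fun _ => 1, fun z => lam z / 6, fun z => mu z / 6, fun _ => 0,
      fun z => lam z * σ.F W z / a + b * (e * nX z) ^ 2,
      fun z => mu z * τ.F W z / a + b * (e * nY z) ^ 2, fun _ => 0, fun _ => 0⟩ :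
        Q8 (VV n))).Ct univ := by
  refine Q8.Ct.sm (hχ.pow 2).continuousOn ⟨continuousOn_const, (hl.div_const _).continuousOn,
    (hm.div_const _).continuousOn, continuousOn_const, ?_, ?_, continuousOn_const,
    continuousOn_const⟩
  · exact ((hl.continuousOn.mul (s_F ok hW).continuousOn).div_const _).add
      (continuous_const.mul ((continuous_const.mul hX).pow 2)).continuousOn
  · exact ((hm.continuousOn.mul (s_F ot hW).continuousOn).div_const _).add
      (continuous_const.mul ((continuous_const.mul hY).pow 2)).continuousOn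

/-- **`iS`.** -/
theorem iS (c : CG q d) : ((H380.INF.MiS q d).sm fun z => d.ch q .iS z ^ 2).Ct univ ∧
    (H380.INF.CiS (d.ch q .iS) q d).Ct univ := by
  have hW : Sm univ (d.W q) := c.c.W.contDiffOn
  have hχ : Sm univ (d.ch q .iS) := (c.c.s.ch _).contDiffOn
  have x1 : Continuous (H380.INF.nX q d) := continuous_const.add (c.cΘ.comp c.cl1)
  have x2 : Continuous (H380.INF.nY q d) := continuous_const.add (c.cΘ.comp c.cl2)
  have l1 : Continuous (H380.INF.lmS q d) := continuous_const.mul x1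
  have l2 : Continuous (H380.INF.muS q d) := continuous_const.mul x2
  exact ⟨marg c.c.ox c.c.oy hW l1 l2 x1 x2 (c.c.s.ch _).continuous 2 _ _,
    continuousOn_const, continuousOn_const, continuousOn_const, continuousOn_const,
    (cost3 c.c.ox hW hχ l1 3 32 8).1, (cost3 c.c.oy hW hχ l2 3 32 8).1, continuousOn_const,
    continuousOn_const⟩

/-- The slope at the retracted points. -/
theorem chN (c : CG q d) : Continuous (H168.INF.hN q d) := by
  have hP := c.c.ok.ret.sm.continuous
  have hl := c.c.ok.l_sm.continuous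
  exact c.c.ok.Φ's.continuous.comp ((hl.comp (hP.comp continuous_fst)).add
    (hl.comp (hP.comp continuous_snd)))

/-- **`iH`** (helper168's letters). -/
theorem iH (c : CG q d) : ((H168.INF.MiH q d).sm fun z => d.ch q .iH z ^ 2).Ct univ ∧
    (H168.INF.CiH (d.ch q .iH) q d).Ct univ := by
  have hW : Sm univ (d.W q) := c.c.W.contDiffOn
  have hχ : Sm univ (d.ch q .iH) := (c.c.s.ch _).contDiffOn
  have l1 : Continuous (H168.INF.lmH q d) := continuous_const.mul (c.chN.add (c.cΘ.comp c.cl1))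
  have l2 : Continuous (H168.INF.muH q d) := continuous_const.mul (c.chN.add (c.cΘ.comp c.cl2))
  refine ⟨Q8.Ct.sm ((c.c.s.ch _).continuous.pow 2).continuousOn ⟨continuousOn_const,
    (l1.div_const _).continuousOn, (l2.div_const _).continuousOn, continuousOn_const, ?_, ?_,
    continuousOn_const, continuousOn_const⟩, continuousOn_const, continuousOn_const,
    continuousOn_const, continuousOn_const, (cost3 c.c.ox hW hχ l1 4 64 8).2,
    (cost3 c.c.oy hW hχ l2 4 64 8).2, continuousOn_const, continuousOn_const⟩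
  · exact ((l1.continuousOn.mul (s_F c.c.ox hW).continuousOn).div_const _).add
      ((l1.pow 2).div_const _).continuousOn
  · exact ((l2.continuousOn.mul (s_F c.c.oy hW).continuousOn).div_const _).add
      ((l2.pow 2).div_const _).continuousOn

end CG

/-! ### The passes -/

/-- **The function of the costs of the passes.** -/
theorem CF.om (c : CF q d) (k : Zo) : Continuous (H660.P.omP d (d.ch q k)) ∧
    ∀ z, z ∉ tsupport (d.ch q k) → H660.P.omP d (d.ch q k) z = 0 := by
  have hχ : Sm univ (d.ch q k) := (c.s.ch _).contDiffOn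
  constructor
  · rw [← continuousOn_univ]
    have h1 := (s_D2 c.ox hχ).continuousOn
    have h2 := (s_D2 c.oy hχ).continuousOn
    exact ((h1.add h2).add ((c.ox.sL hχ).pow 2).continuousOn).add
      ((c.oy.sL hχ).pow 2).continuousOn
  · intro z hz
    have e1 : ∀ (σ : Sl (VV n) (Fin n)) i, σ.D i (d.ch q k) z = 0 := fun σ i =>
      image_eq_zero_of_notMem_tsupport fun h => hz (D_supp σ _ i h)
    have e2 : ∀ (σ : Sl (VV n) (Fin n)) i j, σ.D i (σ.D j (d.ch q k)) z = 0 := fun σ i j =>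
      image_eq_zero_of_notMem_tsupport fun h => hz (D_supp σ _ j (D_supp σ _ i h))
    have e3 : ∀ σ : Sl (VV n) (Fin n), σ.Λ (d.ch q k) z = 0 := fun σ => by
      unfold Sl.Λ
      refine Finset.sum_eq_zero fun i _ => Finset.sum_eq_zero fun j _ => ?_
      rw [e1, e2]
      ring
    have e4 : ∀ σ : Sl (VV n) (Fin n), H660.P.dD σ (d.ch q k) z = 0 := fun σ => by
      unfold H660.P.dD
      refine Finset.sum_eq_zero fun i _ => ?_
      rw [e1]
      norm_num
    unfold H660.P.omP
    rw [e3, e3, e4, e4]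
    norm_num

end Vale.Agent.P088.R2.H493.EP
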