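import Vale.Agent.P088.R2.H493.EP.CtF
import Vale.Agent.P088.R2.H591.X.F0

/-!
# P088, stage 3, EST': continuity of the margins and costs of the literal functions `F0 n`

`ctF0 : ∀ L, L.Ok → Lit (F0 n) L → CtE L`.
-/

open Set Filter MeasureTheory
open scoped ContDiff Topology Matrix

noncomputable section

namespace Vale.Agent.P088.R2.H493.EP

open Vale.Agent.P088.LR Vale.Agent.P088.HY
open Vale.Agent.P088.R2.H31.EP
open Vale.Agent.P088.R2.H551.E
open Vale.Agent.P088.R2.H867.EP (Zo zos mem_zos)
open Vale.Agent.P088.R2.H455.E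
open Vale.Agent.P088.R2.H558.G
open Vale.Agent.P088.R2.H591.X (F0 FM0 FC0)

variable {n : ℕ}

/-- 870's weight is 942's weight. -/
theorem kz_kz (q : Cst) (d : Pk n) : (F0 n).kz q d = d.kz q := rfl

/-- **The continuity of the literal functions `F0 n`.** -/
theorem lfCt0 : LfCt (F0 n) where
  kz := (evCF n).mono fun q h d ok => by
    rw [kz_kz]
    exact ⟨(h d ok).kz.1.continuousOn, (h d ok).kz.2⟩
  ZB := fun K => (evCF n).mono fun q h d ok => (h d ok).ZB (K q)
  GP := (evCF n).mono fun q h d ok => ⟨(h d ok).cGG, (h d ok).om .P1, (h d ok).om .P2⟩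
  F := by
    rintro k (rfl | rfl | rfl | rfl | rfl)
    · exact (evCG n).mono fun q h d ok => (h d ok).iH
    · exact (evCG n).mono fun q h d ok => (h d ok).iF
    · exact (evCG n).mono fun q h d ok => (h d ok).iS
    · exact (evCG n).mono fun q h d ok => (h d ok).c.RSn .RSn
    · exact (evCG n).mono fun q h d ok => (h d ok).RSf

/-- **The field `ct` of `Rest (F0 n)`.** -/
theorem ctF0 : ∀ L : Lc n, L.Ok → Lit (F0 n) L → CtE L := ct_of lfCt0

end Vale.Agent.P088.R2.H493.EP
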