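import Vale.Agent.P088.R2.H493.EP.CtL
import Vale.Agent.P088.R2.H558.G.TopW

/-!
# P088, stage 3, EST': the literal costs vanish off the closed supports of the cut-offs

`offE`: helper558's `RowOff (coz L e) k` for `z0`, `zI`, `z2a`, `z2b`, `A1`, `A2`, `Af`; `off_zB`,
`off_P1`, `off_P2`, `off_F` for the zones with free letters.
-/

open Set Filter MeasureTheory
open scoped ContDiff Topology Matrix

set_option linter.unusedSectionVars false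

noncomputable section

namespace Vale.Agent.P088.R2.H493.EP

open Vale.Agent.P088.LR Vale.Agent.P088.HY
open Vale.Agent.P088.R2.H31.EP
open Vale.Agent.P088.R2.H551.E Vale.Agent.P088.R2.H961.GW Vale.Agent.P088.R2.H960.W
open Vale.Agent.P088.R2.H867.EP (Zo)
open Vale.Agent.P088.R2.H867.Z (sq1 sqp)
open Vale.Agent.P088.R2.H455.E
open Vale.Agent.P088.R2.H341.EP
open Vale.Agent.P088.R2.H558.G (Zr RowOff)

variable {n : ℕ} {q : Cst} {d : Pk n} {z : VV n}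

section z

variable {E ι : Type*} [NormedAddCommGroup E] [NormedSpace ℝ E] [Fintype ι] {z : E}

theorem zr_zero : Zr (0 : Q8 E) z := ⟨rfl, rfl, rfl, rfl, rfl, rfl, rfl, rfl⟩

theorem zr_add {p q : Q8 E} (hp : Zr p z) (hq : Zr q z) : Zr (p + q) z := by
  have e : ∀ {a b : E → ℝ}, a z = 0 → b z = 0 → (a + b) z = 0 := fun h1 h2 => by
    rw [Pi.add_apply, h1, h2, add_zero]
  exact ⟨e hp.κ hq.κ, e hp.ζ₁ hq.ζ₁, e hp.ζ₂ hq.ζ₂, e hp.ζy hq.ζy, e hp.w₁ hq.w₁, e hp.w₂ hq.w₂,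
    e hp.wb hq.wb, e hp.wc hq.wc⟩

theorem zr_sm {f : E → ℝ} (q : Q8 E) (h : f z = 0) : Zr (q.sm f) z := by
  have e : ∀ b : E → ℝ, (f * b) z = 0 := fun b => by rw [Pi.mul_apply, h, zero_mul]
  exact ⟨e _, e _, e _, e _, e _, e _, e _, e _⟩

/-- The cost of zone A. -/
theorem zr_coA {σ τ : Sl E ι} {W m χ : E → ℝ} {η : ℝ} (hz : z ∉ tsupport χ) :
    Zr (H747.SW.coA σ τ W m χ η) z := by
  have a : ∀ σ : Sl E ι, ∑ i, σ.D i χ z ^ 2 = 0 := fun σ =>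
    image_eq_zero_of_notMem_tsupport (f := fun z => ∑ i, σ.D i χ z ^ 2)
      fun h => hz (D2_supp σ χ h)
  have b : ∀ σ : Sl E ι, σ.Γ χ χ z = 0 := fun σ =>
    image_eq_zero_of_notMem_tsupport fun h => hz (G_supp σ χ h)
  have e1 : ∀ σ : Sl E ι, 32 * η * (H747.SW.rh m z * ∑ i, σ.D i χ z ^ 2) = 0 := fun σ => by
    rw [a σ]; ring
  have e2 : ∀ σ : Sl E ι, 3 / η * (m z * σ.Γ χ χ z) +
      144 * η * (H747.SW.rh m z * (∑ i, σ.D i χ z ^ 2) * ∑ i, σ.D i W z ^ 2) = 0 := fun σ => by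
    rw [a σ, b σ]; ring
  exact ⟨rfl, e1 σ, e1 τ, rfl, e2 σ, e2 τ, rfl, rfl⟩

end z

theorem ev0 {χ : VV n → ℝ} (hz : z ∉ tsupport χ) : χ =ᶠ[𝓝 z] fun _ => 0 := by
  filter_upwards [(isClosed_tsupport χ).isOpen_compl.mem_nhds hz] with w hw
  exact image_eq_zero_of_notMem_tsupport hw

theorem sq10 {χ : VV n → ℝ} (hz : z ∉ tsupport χ) : sq1 χ z = 0 :=
  (H867.Z.sq1_ev (ev0 hz)).self_of_nhds

theorem sqp0 {χ : VV n → ℝ} (hz : z ∉ tsupport χ) : sqp χ z = 0 :=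
  (H867.Z.sqp_ev (ev0 hz)).self_of_nhds

theorem Zc0 {K η : ℝ} {ρ En N k χ : VV n → ℝ} (hz : z ∉ tsupport χ) :
    H867.Z.Zc K η ρ En N k χ z = 0 := by
  unfold H867.Z.Zc
  rw [sq10 hz, sqp0 hz]
  simp

theorem zr_c0 {ν : H165.Tab.Nu (VV n)} {C s η : ℝ} {Z : VV n → ℝ} (h : Z z = 0) :
    Zr (H165.Tab.c0 ν C s Z η) z := by
  refine ⟨rfl, ?_, ?_, rfl, ?_, ?_, rfl, rfl⟩ <;> simp [H165.Tab.c0, h]

theorem zr_cI {ν : H165.Tab.Nu (VV n)} {C : ℝ} {Zq Zp : VV n → ℝ} (h : Zq z = 0) (h' : Zp z = 0) :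
    Zr (H165.Tab.cI ν C Zq Zp) z := by
  refine ⟨rfl, rfl, rfl, rfl, rfl, rfl, ?_, ?_⟩ <;> simp [H165.Tab.cI, h, h']

theorem zr_cTu {C : ℝ} {N ρx ρy Z : VV n → ℝ} (h : Z z = 0) : Zr (cTu C N ρx ρy Z) z := by
  refine ⟨rfl, rfl, rfl, rfl, ?_, ?_, rfl, rfl⟩ <;> simp [cTu, h]

theorem zr_cII {ν : H165.Tab.Nu (VV n)} {C : ℝ} {Z : VV n → ℝ} (h : Z z = 0) :
    Zr (H165.Tab.cII ν C Z) z := zr_sm _ (by simp only [h, mul_zero])

theorem zr_cB {ν : H165.Tab.Nu (VV n)} {C : ℝ} {Z Zq : VV n → ℝ} (h : Z z = 0) (h' : Zq z = 0) :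
    Zr (H165.Tab.cB ν C Z Zq) z :=
  zr_add (zr_sm _ (by simp only [h, mul_zero]))
    ⟨by simp only [h', mul_zero], rfl, rfl, rfl, rfl, rfl, rfl, rfl⟩

theorem zr_coP {σ τ : Sl (VV n) (Fin n)} {W G om : VV n → ℝ} {C : ℝ} (h : om z = 0) :
    Zr (H660.P.coP σ τ W G om C) z := by
  refine ⟨rfl, ?_, ?_, rfl, ?_, ?_, rfl, rfl⟩ <;> simp [H660.P.coP, h]

theorem zr_coPm {σ τ : Sl (VV n) (Fin n)} {W G om : VV n → ℝ} {C : ℝ} (h : om z = 0) :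
    Zr (H660.P.coPm σ τ W G om C) z := by
  refine ⟨rfl, ?_, ?_, rfl, ?_, ?_, rfl, rfl⟩ <;> simp [H660.P.coPm, h]

/-- **The costs of the zones without free letters vanish off the supports.** -/
theorem offE (L : Lc n) (e : Cst → ℝ) {k : Zo} (hk : k = .z0 ∨ k = .zI ∨ k = .z2a ∨ k = .z2b ∨
    k = .A1 ∨ k = .A2 ∨ k = .Af) : RowOff (coz L e) k := by
  refine EvC.of fun q d _ z hz => ?_
  rcases hk with rfl | rfl | rfl | rfl | rfl | rfl | rfl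
  · exact zr_c0 (sq10 hz)
  · exact zr_add (zr_cI (sq10 hz) (sqp0 hz)) (zr_cTu (sq10 hz))
  · exact zr_cII (Zc0 hz)
  · exact zr_cII (Zc0 hz)
  · exact zr_coA hz
  · exact zr_coA hz
  · exact zr_coA hz

theorem off_zB {L : Lc n} (e : Cst → ℝ) (h : EvC fun q => ∀ d : Pk n, PkOk q d → ∀ z,
    z ∉ tsupport (d.ch q .zB) → L.ZB q d z = 0 ∧ L.ZB' q d z = 0) : RowOff (coz L e) .zB :=
  h.mono fun _ h d ok z hz => zr_cB (h d ok z hz).1 (h d ok z hz).2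

theorem off_P1 {L : Lc n} (e : Cst → ℝ) (h : EvC fun q => ∀ d : Pk n, PkOk q d → ∀ z,
    z ∉ tsupport (d.ch q .P1) → L.om .P1 q d z = 0) : RowOff (coz L e) .P1 :=
  h.mono fun _ h d ok z hz => zr_coP (h d ok z hz)

theorem off_P2 {L : Lc n} (e : Cst → ℝ) (h : EvC fun q => ∀ d : Pk n, PkOk q d → ∀ z,
    z ∉ tsupport (d.ch q .P2) → L.om .P2 q d z = 0) : RowOff (coz L e) .P2 :=
  h.mono fun _ h d ok z hz => zr_coPm (h d ok z hz)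

theorem off_F {L : Lc n} (e : Cst → ℝ) {k : Zo} (hk : k = .iH ∨ k = .iF ∨ k = .iS ∨ k = .RSn ∨
    k = .RSf) (h : EvC fun q => ∀ d : Pk n, PkOk q d → ∀ z, z ∉ tsupport (d.ch q k) →
      Zr (L.FC k q d) z) : RowOff (coz L e) k := by
  refine h.mono fun q h d ok z hz => ?_
  have := h d ok z hz
  rcases hk with rfl | rfl | rfl | rfl | rfl <;> exact this

end Vale.Agent.P088.R2.H493.EP
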